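import Vale.Agent.P325.H111.K2.Stmts

/-!
# Anticoncentration of the weighted sum
-/

namespace Vale.Agent.P325.H810.K2

open Finset Vale.Agent.P325.K2

/-! ### Products -/

section

variable {α β : Type} [Fintype α] [Fintype β]

theorem Ex_le_of {f : α → ℝ} {M : ℝ} (h : ∀ x, f x ≤ M) (hM : 0 ≤ M) : Ex f ≤ M := by
  rcases isEmpty_or_nonempty α with h0 | h0
  · simp [Ex, hM]
  · exact (Ex_mono h).trans (Ex_const M).le

theorem Pr_prod_le {p : α × β → Prop} {M : ℝ} (hM : 0 ≤ M) (h : ∀ x, Pr (fun y => p (x, y)) ≤ M) :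
    Pr p ≤ M := by
  rw [Pr_prod]
  exact Ex_le_of h hM

theorem Ex_pow (g : β → ℝ) (m : ℕ) : Ex (fun y : Fin m → β => ∏ k, g (y k)) = Ex g ^ m := by
  rw [Ex, Ex, div_pow, Fintype.sum_pow, Fintype.card_fun, Fintype.card_fin]
  push_cast
  rfl

end

theorem Pr_card {α : Type} [Fintype α] (p : α → Prop) [DecidablePred p] :
    Pr p = (#{x | p x} : ℝ) / Fintype.card α := by
  rw [Pr_eq_card]
  have h : (Finset.filter (fun x => p x) univ : Finset α) =
      @Finset.filter α (fun x => p x) (fun x => Classical.propDecidable (p x)) univ := by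
    ext x
    simp
  rw [h]

/-! ### The values of strings -/

theorem dvd_of_tw {L : ℕ} {v : ℤ} (h : tw L v = 0) : (2 * L : ℤ) ∣ v := by
  unfold tw at h
  have h1 := Int.emod_add_mul_ediv (v + L) (4 * L)
  have h2 : |(v + L) % (4 * L) - 2 * L| = (L : ℤ) := by linarith
  rcases (abs_eq (Int.natCast_nonneg L)).1 h2 with h3 | h3
  · exact ⟨1 + 2 * ((v + L) / (4 * L)), by linear_combination h3 - h1⟩
  · exact ⟨2 * ((v + L) / (4 * L)), by linear_combination h3 - h1⟩

theorem abs_tw_le {L : ℕ} (hL : 0 < L) (v : ℤ) : |tw L v| ≤ L := by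
  unfold tw
  have hL' : (0 : ℤ) < L := by exact_mod_cast hL
  have h1 := Int.emod_nonneg (v + L) (b := 4 * L) (by positivity)
  have h2 := Int.emod_lt_of_pos (v + L) (b := 4 * L) (by positivity)
  have h3 : |(v + L) % (4 * L) - 2 * L| ≤ 2 * (L : ℤ) := by
    rw [abs_le]
    constructor <;> linarith
  have h4 := abs_nonneg ((v + L) % (4 * L) - 2 * (L : ℤ))
  rw [abs_le]
  constructor <;> linarith

theorem abs_xv_le {L : ℕ} (hL : 0 < L) (y : Fin (L * L) → Bool) : |xv L y| ≤ L := abs_tw_le hL _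

/-- Change of one bit. -/
def flipE {ι : Type} [DecidableEq ι] (i : ι) : (ι → Bool) ≃ (ι → Bool) where
  toFun y := Function.update y i (!y i)
  invFun y := Function.update y i (!y i)
  left_inv y := by simp
  right_inv y := by simp

theorem sum_flip {ι : Type} [Fintype ι] [DecidableEq ι] (i : ι) (y : ι → Bool) :
    ∑ j, sgz (flipE i y j) = ∑ j, sgz (y j) + (if y i then -2 else 2) := by
  have h1 : ∀ z : ι → Bool, ∑ j, sgz (z j) = sgz (z i) + ∑ j ∈ univ.erase i, sgz (z j) := fun z =>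
    (add_sum_erase _ _ (mem_univ i)).symm
  rw [h1, h1]
  have h2 : ∑ j ∈ univ.erase i, sgz (flipE i y j) = ∑ j ∈ univ.erase i, sgz (y j) :=
    sum_congr rfl fun j hj => by
      simp [flipE, Function.update_of_ne (ne_of_mem_erase hj)]
  rw [h2]
  have h3 : flipE i y i = !y i := by simp [flipE]
  rw [h3]
  cases y i <;> simp [sgz] <;> ring

theorem xv_zero_half {L : ℕ} (hL : 2 ≤ L) :
    Pr (fun y : Fin (L * L) → Bool => xv L y = 0) ≤ 1 / 2 := by
  classical
  have h0 : 0 < L * L := by positivity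
  set i : Fin (L * L) := ⟨0, h0⟩
  have h1 : ∀ y : Fin (L * L) → Bool, xv L y = 0 → ¬ xv L (flipE i y) = 0 := by
    intro y h2 h3
    have h4 := dvd_of_tw h2
    have h5 := dvd_of_tw h3
    rw [sum_flip] at h5
    have h6 := (Int.dvd_add_right h4).1 h5
    have h7 : (2 * L : ℤ) ∣ 2 := by
      split_ifs at h6
      · exact (Int.dvd_neg).1 h6
      · exact h6
    have h8 := Int.le_of_dvd (by norm_num) h7
    have h9 : (2 : ℤ) ≤ L := by exact_mod_cast hL
    linarith
  have h2 := Pr_equiv (flipE i) fun y : Fin (L * L) → Bool => xv L y = 0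
  have h3 : Pr (fun y : Fin (L * L) → Bool => xv L (flipE i y) = 0) ≤
      Pr (fun y : Fin (L * L) → Bool => ¬ xv L y = 0) :=
    Pr_mono fun y hy h => h1 y h hy
  rw [Pr_not, h2] at h3
  linarith

theorem small_half (hB : BallThm) : ∃ δ : ℝ, 0 < δ ∧ δ ≤ 1 ∧ ∀ L : ℕ, 2 ≤ L → Even L →
    Pr (fun y : Fin (L * L) → Bool => ¬ δ * L ≤ |(xv L y : ℝ)|) ≤ 1 / 2 := by
  obtain ⟨C, hC, hB⟩ := hB
  refine ⟨min (1 / (8 * C)) (1 / (4 * C + 1)), by positivity, ?_, fun L hL hE => ?_⟩
  · refine (min_le_right _ _).trans ?_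
    rw [div_le_one (by positivity)]
    linarith
  set δ : ℝ := min (1 / (8 * C)) (1 / (4 * C + 1)) with hδ
  have hδ0 : 0 < δ := by positivity
  have hL0 : (2 : ℝ) ≤ L := by exact_mod_cast hL
  have hδ1 : δ * (8 * C) ≤ 1 := by
    have h1 : δ ≤ 1 / (8 * C) := min_le_left _ _
    rwa [le_div_iff₀ (by positivity)] at h1
  have hδ2 : δ * (4 * C + 1) ≤ 1 := by
    have h1 : δ ≤ 1 / (4 * C + 1) := min_le_right _ _
    rwa [le_div_iff₀ (by positivity)] at h1
  by_cases h : (L : ℝ) < 4 * C + 1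
  · refine le_trans (Pr_mono fun y hy => ?_) (xv_zero_half hL)
    by_contra h1
    have h2 : (1 : ℤ) ≤ |xv L y| := Int.one_le_abs h1
    have h3 : (1 : ℝ) ≤ |(xv L y : ℝ)| := by exact_mod_cast h2
    refine hy (le_trans ?_ h3)
    nlinarith
  · push Not at h
    set m : ℤ := ⌊δ * L⌋ with hm
    have hm0 : 0 ≤ m := Int.floor_nonneg.2 (by positivity)
    have h1 : Pr (fun y : Fin (L * L) → Bool => ¬ δ * L ≤ |(xv L y : ℝ)|) ≤
        Pr (fun y : Fin (L * L) → Bool => ∃ v : ↥(Finset.Icc (-m) m), xv L y = v) := by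
      refine Pr_mono fun y hy => ?_
      push Not at hy
      have h2 : |xv L y| ≤ m := by
        rw [hm, Int.le_floor]
        push_cast
        exact hy.le
      exact ⟨⟨xv L y, Finset.mem_Icc.2 (abs_le.1 h2)⟩, rfl⟩
    refine h1.trans ((Pr_exists_le _).trans ?_)
    have h3 : ∑ v : ↥(Finset.Icc (-m) m), Pr (fun y : Fin (L * L) → Bool => xv L y = v) ≤
        ∑ _v : ↥(Finset.Icc (-m) m), C / L := sum_le_sum fun v _ => hB L hL hE v
    refine h3.trans ?_
    rw [sum_const, card_univ, Fintype.card_coe, Int.card_Icc, nsmul_eq_mul]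
    have h4 : ((m + 1 - -m).toNat : ℝ) = 2 * (m : ℝ) + 1 := by
      have h5 : ((m + 1 - -m).toNat : ℤ) = 2 * m + 1 := by
        rw [Int.toNat_of_nonneg (by linarith)]; ring
      exact_mod_cast h5
    rw [h4]
    have h5 : (m : ℝ) ≤ δ * L := Int.floor_le _
    have h6 : C / L * L = C := div_mul_cancel₀ _ (by positivity)
    have h7 : C / L ≤ 1 / 4 := by
      rw [div_le_iff₀ (by linarith)]
      linarith
    have h8 : 0 < C / L := by positivity
    calc (2 * (m : ℝ) + 1) * (C / L) ≤ (2 * (δ * L) + 1) * (C / L) := by gcongr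
      _ = 2 * δ * (C / L * L) + C / L := by ring
      _ = 2 * δ * C + C / L := by rw [h6]
      _ ≤ 1 / 2 := by nlinarith

/-! ### Covering by intervals -/

theorem LO_cover (hLO : LOThm) {K : Type} [Fintype K] [DecidableEq K] (v : K → ℤ) (w : ℤ)
    (hw : 0 < w) (hv : ∀ k, w ≤ |v k|) (s M : ℤ) (hM : 0 ≤ M) :
    Pr (fun b : K → Bool => |s + ∑ k, (if b k then v k else 0)| ≤ M) ≤
      (2 * M / w + 1) / Real.sqrt (Fintype.card K + 1) := by
  set J : ℕ := ((2 * M) / w).toNat + 1 with hJ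
  have h0 : 0 ≤ (2 * M) / w := Int.ediv_nonneg (by linarith) hw.le
  have h1 : Pr (fun b : K → Bool => |s + ∑ k, (if b k then v k else 0)| ≤ M) ≤
      Pr (fun b : K → Bool => ∃ j : Fin J, (-M - s + (j : ℤ) * w ≤ ∑ k, (if b k then v k else 0) ∧
        ∑ k, (if b k then v k else 0) < -M - s + (j : ℤ) * w + w)) := by
    refine Pr_mono fun b hb => ?_
    set T := ∑ k, (if b k then v k else 0) with hT
    obtain ⟨h2, h3⟩ := abs_le.1 hb
    have h4 : 0 ≤ (T + M + s) / w := Int.ediv_nonneg (by linarith) hw.le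
    have h5 : (T + M + s) / w ≤ (2 * M) / w := Int.ediv_le_ediv hw (by linarith)
    refine ⟨⟨((T + M + s) / w).toNat, ?_⟩, ?_⟩
    · rw [hJ]
      have := Int.toNat_le_toNat h5
      omega
    · have h6 : ((((T + M + s) / w).toNat : ℕ) : ℤ) = (T + M + s) / w := Int.toNat_of_nonneg h4
      dsimp only
      rw [h6]
      have h7 := Int.emod_add_mul_ediv (T + M + s) w
      have h8 := Int.emod_nonneg (T + M + s) hw.ne'
      have h9 := Int.emod_lt_of_pos (T + M + s) hw
      constructor <;> nlinarith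
  refine h1.trans ((Pr_exists_le _).trans ?_)
  have h2 : ∑ j : Fin J, Pr (fun b : K → Bool =>
      (-M - s + (j : ℤ) * w ≤ ∑ k, (if b k then v k else 0) ∧
        ∑ k, (if b k then v k else 0) < -M - s + (j : ℤ) * w + w)) ≤
      ∑ _j : Fin J, 1 / Real.sqrt (Fintype.card K + 1) := by
    refine sum_le_sum fun j _ => ?_
    exact hLO K v w _ hw hv
  refine h2.trans ?_
  rw [sum_const, card_univ, Fintype.card_fin, nsmul_eq_mul, mul_one_div]
  refine div_le_div_of_nonneg_right ?_ (Real.sqrt_nonneg _)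
  rw [hJ]
  push_cast
  have h3 : (((2 * M / w).toNat : ℕ) : ℝ) = (((2 * M) / w : ℤ) : ℝ) := by
    have h5 : ((((2 * M) / w).toNat : ℕ) : ℤ) = (2 * M) / w := Int.toNat_of_nonneg h0
    exact_mod_cast h5
  rw [h3]
  have hw' : (0 : ℝ) < w := by exact_mod_cast hw
  have h4 : (((2 * M) / w : ℤ) : ℝ) ≤ 2 * M / w := by
    rw [le_div_iff₀ hw']
    have h5 : (2 * M) / w * w ≤ 2 * M := Int.ediv_mul_le _ hw.ne'
    exact_mod_cast h5
  linarith

/-! ### Counting multiples -/

theorem card_le_of_diam {A : Finset ℕ} {D : ℝ} (hD : 0 ≤ D)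
    (h : ∀ v ∈ A, ∀ v' ∈ A, (v' : ℝ) - v ≤ D) : (#A : ℝ) ≤ D + 1 := by
  rcases A.eq_empty_or_nonempty with rfl | hA
  · simp; linarith
  · set a := A.min' hA
    have h1 : A ⊆ Finset.Icc a (a + ⌊D⌋₊) := by
      intro v hv
      have h2 : a ≤ v := A.min'_le v hv
      have h3 := h a (A.min'_mem hA) v hv
      rw [Finset.mem_Icc]
      refine ⟨h2, ?_⟩
      have h4 : v - a ≤ ⌊D⌋₊ := by
        refine Nat.le_floor ?_
        rw [Nat.cast_sub h2]
        exact h3
      omega
    have h2 := Finset.card_le_card h1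
    rw [Nat.card_Icc] at h2
    have h3 : (#A : ℝ) ≤ ⌊D⌋₊ + 1 := by
      have h4 : #A ≤ ⌊D⌋₊ + 1 := by omega
      exact_mod_cast h4
    have h4 := Nat.floor_le hD
    linarith

theorem mult_le {h : ℕ} (hh : 0 < h) {δ : ℝ} (hδ : 0 < δ) {x : ℤ} (hx : |x| ≤ 2 * h)
    (hx' : δ * (2 * h) ≤ |(x : ℝ)|) (s : ℤ) :
    Pr (fun v : Fin h => |s + (v : ℤ) * x| ≤ 4 * h) ≤
      if |s| ≤ 4 * h + 2 * h * h then (4 / δ + 1) / h else 0 := by
  have hh' : (0 : ℝ) < h := by exact_mod_cast hh
  split_ifs with hs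
  · rw [Pr_card, Fintype.card_fin]
    refine div_le_div_of_nonneg_right ?_ hh'.le
    have h1 : #{v : Fin h | |s + (v : ℤ) * x| ≤ 4 * h} =
        #(({v : Fin h | |s + (v : ℤ) * x| ≤ 4 * h} : Finset (Fin h)).map Fin.valEmbedding) :=
      (card_map _).symm
    rw [h1]
    refine card_le_of_diam (by positivity) fun v hv v' hv' => ?_
    simp only [Finset.mem_map, Finset.mem_filter, Finset.mem_univ, true_and,
      Fin.valEmbedding_apply] at hv hv'
    obtain ⟨a, ha, rfl⟩ := hv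
    obtain ⟨b, hb, rfl⟩ := hv'
    have h2 : |((b : ℤ) - (a : ℤ)) * x| ≤ 8 * h := by
      have h3 : ((b : ℤ) - (a : ℤ)) * x = (s + (b : ℤ) * x) - (s + (a : ℤ) * x) := by ring
      rw [h3]
      refine (abs_sub _ _).trans ?_
      linarith
    have h3 : |((b : ℕ) : ℝ) - ((a : ℕ) : ℝ)| * |(x : ℝ)| ≤ 8 * h := by
      rw [← abs_mul]
      exact_mod_cast h2
    rw [le_div_iff₀ hδ]
    have h4 := le_abs_self (((b : ℕ) : ℝ) - ((a : ℕ) : ℝ))
    have h5 : |((b : ℕ) : ℝ) - ((a : ℕ) : ℝ)| * (δ * (2 * h)) ≤ 8 * h :=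
      (mul_le_mul_of_nonneg_left hx' (abs_nonneg _)).trans h3
    have h6 : |((b : ℕ) : ℝ) - ((a : ℕ) : ℝ)| * δ ≤ 4 := by
      have h7 : |((b : ℕ) : ℝ) - ((a : ℕ) : ℝ)| * δ * (2 * h) ≤ 4 * (2 * h) := by linarith
      exact le_of_mul_le_mul_right h7 (by positivity)
    nlinarith
  · refine le_of_eq ?_
    rw [Pr_card]
    have h1 : ({v : Fin h | |s + (v : ℤ) * x| ≤ 4 * h} : Finset (Fin h)) = ∅ := by
      rw [Finset.filter_eq_empty_iff]
      intro v _ hv
      refine hs ?_
      have h2 : s = (s + (v : ℤ) * x) - (v : ℤ) * x := by ring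
      rw [h2]
      refine (abs_sub _ _).trans ?_
      have h3 : |(v : ℤ) * x| ≤ h * (2 * h) := by
        rw [abs_mul]
        have h4 : |((v : ℕ) : ℤ)| ≤ h := by
          rw [Nat.abs_cast]
          exact_mod_cast v.2.le
        exact mul_le_mul h4 hx (abs_nonneg _) (Int.natCast_nonneg _)
      linarith
    rw [h1]
    simp

/-! ### Given values: the choice of the weights -/

/-- A weight, from its leading bit and the rest. -/
def joinE (h : ℕ) : Bool × Fin h ≃ Fin (h + h) := (Equiv.boolProdEquivSum _).trans finSumFinEquiv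

theorem joinE_val {h : ℕ} (b : Bool) (v : Fin h) :
    ((joinE h (b, v) : ℕ) : ℤ) = (if b then (h : ℤ) else 0) + (v : ℤ) := by
  cases b
  · simp [joinE, Equiv.boolProdEquivSum]
  · simp [joinE, Equiv.boolProdEquivSum, add_comm]

theorem bits_le (hLO : LOThm) {n h : ℕ} (hh : 0 < h) {δ : ℝ} (hδ : 0 < δ) (x : Fin n → ℤ)
    (K : Finset (Fin n)) (hK : ∀ k ∈ K, δ * (2 * h) ≤ |(x k : ℝ)|) (s : ℤ) :
    Pr (fun b : Fin n → Bool => |s + ∑ k, (if b k then (h : ℤ) * x k else 0)| ≤
      4 * h + 2 * h * h) ≤ (6 / δ + 1) / Real.sqrt (#K + 1) := by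
  have hh' : (0 : ℝ) < h := by exact_mod_cast hh
  have hh1 : (1 : ℝ) ≤ h := by exact_mod_cast hh
  rw [← Pr_equiv (Equiv.piEquivPiSubtypeProd (fun k => k ∈ K) fun _ : Fin n => Bool).symm]
  set e := (Equiv.piEquivPiSubtypeProd (fun k => k ∈ K) fun _ : Fin n => Bool).symm
  rw [← Pr_equiv (Equiv.prodComm _ _)]
  refine Pr_prod_le (by positivity) fun u => ?_
  have h1 : ∀ b : {k // k ∈ K} → Bool, ∑ k, (if e (b, u) k then (h : ℤ) * x k else 0) =
      ∑ k : {k // k ∈ K}, (if b k then (h : ℤ) * x k else 0) +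
        ∑ k : {k // ¬ k ∈ K}, (if u k then (h : ℤ) * x k else 0) := by
    intro b
    rw [← Fintype.sum_subtype_add_sum_subtype (fun k => k ∈ K)]
    refine congrArg₂ (· + ·) ?_ ?_
    · refine sum_congr (by ext; simp) fun k _ => ?_
      have h2 : e (b, u) k = b k := by
        simp only [e, Equiv.piEquivPiSubtypeProd, Equiv.coe_fn_symm_mk]
        rw [dif_pos k.2]
      rw [h2]
    · refine sum_congr (by ext; simp) fun k _ => ?_
      have h2 : e (b, u) k = u k := by
        simp only [e, Equiv.piEquivPiSubtypeProd, Equiv.coe_fn_symm_mk]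
        rw [dif_neg k.2]
      rw [h2]
  set w : ℤ := ⌈δ * (2 * h) * h⌉ with hw
  have hw0 : 0 < w := Int.ceil_pos.2 (by positivity)
  have hv : ∀ k : {k // k ∈ K}, w ≤ |(h : ℤ) * x k| := by
    intro k
    rw [hw, Int.ceil_le]
    push_cast
    rw [abs_mul, abs_of_pos hh', mul_comm]
    exact mul_le_mul_of_nonneg_left (hK k k.2) hh'.le
  have h2 := LO_cover hLO (fun k : {k // k ∈ K} => (h : ℤ) * x k) w hw0 hv
    (s + ∑ k : {k // ¬ k ∈ K}, (if u k then (h : ℤ) * x k else 0)) (4 * h + 2 * h * h)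
    (by positivity)
  have h3 : Pr (fun y : {k // k ∈ K} → Bool => |s + ∑ k, (if e ((Equiv.prodComm _ _) (u, y)) k
      then (h : ℤ) * x k else 0)| ≤ 4 * h + 2 * h * h) =
      Pr fun b : {k // k ∈ K} → Bool => |s + ∑ k : {k // ¬ k ∈ K},
        (if u k then (h : ℤ) * x k else 0) + ∑ k : {k // k ∈ K},
          (if b k then (h : ℤ) * x k else 0)| ≤ 4 * h + 2 * h * h := by
    refine Pr_congr fun b => ?_
    have h4 : (Equiv.prodComm _ _) (u, b) = (b, u) := rfl
    rw [h4, h1, add_assoc, add_comm (∑ k : {k // k ∈ K}, _)]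
  rw [h3]
  refine h2.trans ?_
  rw [Fintype.card_coe]
  refine div_le_div_of_nonneg_right ?_ (Real.sqrt_nonneg _)
  have h5 : δ * (2 * h) * h ≤ w := Int.le_ceil _
  have h6 : 2 * ((4 * h + 2 * h * h : ℤ) : ℝ) / w ≤ 6 / δ := by
    have hw' : (0 : ℝ) < w := by exact_mod_cast hw0
    rw [div_le_div_iff₀ hw' hδ]
    push_cast
    have h7 : (4 * (h : ℝ) + 2 * h * h) ≤ 6 * (h * h) := by nlinarith
    nlinarith
  linarith

/-- The weighted sum is small with probability `O(1 / (h sqrt K))` for given values of which `K`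
are large. -/
theorem good_le (hLO : LOThm) {n h : ℕ} (hh : 0 < h) {δ : ℝ} (hδ : 0 < δ) (x : Fin n → ℤ)
    (hx : ∀ k, |x k| ≤ 2 * h) (K : Finset (Fin n)) (hK : ∀ k ∈ K, δ * (2 * h) ≤ |(x k : ℝ)|)
    (hne : K.Nonempty) :
    Pr (fun a : Fin n → Fin (h + h) => |∑ k, (a k : ℤ) * x k| ≤ 4 * h) ≤
      (4 / δ + 1) / h * ((6 / δ + 1) / Real.sqrt (#K + 1)) := by
  classical
  obtain ⟨k₀, hk₀⟩ := hne
  have hh' : (0 : ℝ) < h := by exact_mod_cast hh
  set c1 : ℝ := (4 / δ + 1) / h with hc1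
  have hc1' : 0 ≤ c1 := by positivity
  -- change of variables
  set E1 : ((Fin n → Bool) × (Fin n → Fin h)) ≃ (Fin n → Fin (h + h)) :=
    (Equiv.arrowProdEquivProdArrow _ _ _).symm.trans (Equiv.arrowCongr (Equiv.refl _) (joinE h))
    with hE1
  have hE1v : ∀ b a k, ((E1 (b, a) k : ℕ) : ℤ) = (if b k then (h : ℤ) else 0) + (a k : ℤ) := by
    intro b a k
    rw [← joinE_val]
    rfl
  rw [← Pr_equiv E1]
  have h1 : ∀ (b : Fin n → Bool) (a : Fin n → Fin h), ∑ k, ((E1 (b, a) k : ℕ) : ℤ) * x k =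
      ∑ k, (if b k then (h : ℤ) * x k else 0) + ∑ k, (a k : ℤ) * x k := by
    intro b a
    rw [← sum_add_distrib]
    refine sum_congr rfl fun k _ => ?_
    rw [hE1v, add_mul]
    congr 1
    split_ifs <;> simp
  set E2 : (Fin n → Fin h) ≃ Fin h × ({k // k ≠ k₀} → Fin h) := Equiv.funSplitAt k₀ (Fin h)
  set R : ({k // k ≠ k₀} → Fin h) → ℤ := fun u => ∑ k, (u k : ℤ) * x k with hR
  have h2 : ∀ (v : Fin h) (u : {k // k ≠ k₀} → Fin h),
      ∑ k, ((E2.symm (v, u) k : ℕ) : ℤ) * x k = (v : ℤ) * x k₀ + R u := by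
    intro v u
    rw [Fintype.sum_eq_add_sum_subtype_ne _ k₀]
    congr 1
    · have : E2.symm (v, u) k₀ = v := by simp [E2, Equiv.funSplitAt]
      rw [this]
    · refine sum_congr rfl fun k _ => ?_
      have : E2.symm (v, u) k = u k := by
        simp [E2, Equiv.funSplitAt, k.2]
      rw [this]
  calc Pr (fun p : (Fin n → Bool) × (Fin n → Fin h) => |∑ k, ((E1 p k : ℕ) : ℤ) * x k| ≤ 4 * h)
      = Ex fun b : Fin n → Bool => Pr fun a : Fin n → Fin h =>
          |∑ k, ((E1 (b, a) k : ℕ) : ℤ) * x k| ≤ 4 * h := Pr_prod _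
    _ ≤ Ex fun b : Fin n → Bool => Ex fun u : {k // k ≠ k₀} → Fin h =>
          c1 * (if |R u + ∑ k, (if b k then (h : ℤ) * x k else 0)| ≤ 4 * h + 2 * h * h
            then 1 else 0) := by
        refine Ex_mono fun b => ?_
        rw [← Pr_equiv E2.symm, ← Pr_equiv (Equiv.prodComm _ _), Pr_prod]
        refine Ex_mono fun u => ?_
        have h3 := mult_le hh hδ (hx k₀) (hK k₀ hk₀)
          (R u + ∑ k, (if b k then (h : ℤ) * x k else 0))
        refine le_trans (le_of_eq (Pr_congr fun v => ?_)) (h3.trans (le_of_eq ?_))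
        · have h4 : (Equiv.prodComm _ _) (u, v) = (v, u) := rfl
          rw [h1, h4, h2]
          have h5 : ∑ k, (if b k then (h : ℤ) * x k else 0) + ((v : ℤ) * x k₀ + R u) =
            R u + ∑ k, (if b k then (h : ℤ) * x k else 0) + (v : ℤ) * x k₀ := by ring
          rw [h5]
        · split_ifs <;> simp [hc1]
    _ = Ex fun u : {k // k ≠ k₀} → Fin h => c1 * Pr fun b : Fin n → Bool =>
          |R u + ∑ k, (if b k then (h : ℤ) * x k else 0)| ≤ 4 * h + 2 * h * h := by
        rw [Ex_comm]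
        refine Ex_congr fun u => ?_
        rw [Ex_const_mul]
        congr 1
        unfold Pr
        refine Ex_congr fun b => ?_
        split_ifs <;> rfl
    _ ≤ c1 * ((6 / δ + 1) / Real.sqrt (#K + 1)) := by
        refine Ex_le_of (fun u => ?_) (by positivity)
        exact mul_le_mul_of_nonneg_left (bits_le hLO hh hδ x K hK _) hc1'

/-! ### Few large values -/

theorem chernoff {Y : Type} [Fintype Y] [Nonempty Y] (big : Y → Prop) [DecidablePred big]
    (hb : Pr (fun y => ¬ big y) ≤ 1 / 2) (m : ℕ) :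
    Pr (fun y : Fin m → Y => 8 * #{k | big (y k)} ≤ m) ≤ 4 / (m + 4) := by
  classical
  have hs : Real.sqrt 2 ^ 2 = 2 := Real.sq_sqrt (by norm_num)
  have hs0 : 0 < Real.sqrt 2 := Real.sqrt_pos.2 (by norm_num)
  have hs1 : Real.sqrt 2 ≤ 3 / 2 := by
    rw [Real.sqrt_le_left (by norm_num)]
    norm_num
  have hs2 : (1 : ℝ) ≤ Real.sqrt 2 := by
    rw [Real.one_le_sqrt]
    norm_num
  set g : Y → ℝ := fun y => Real.sqrt 2 * (if big y then 1 / 16 else 1) with hg
  have hg0 : ∀ y, 0 ≤ g y := fun y => by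
    rw [hg]
    dsimp only
    split_ifs <;> positivity
  have h1 : Pr (fun y : Fin m → Y => 8 * #{k | big (y k)} ≤ m) ≤
      Ex fun y : Fin m → Y => ∏ k, g (y k) := by
    unfold Pr
    refine Ex_mono fun y => ?_
    split_ifs with h
    · have h2 : ∏ k, g (y k) = Real.sqrt 2 ^ m * (1 / 16) ^ #{k | big (y k)} := by
        rw [hg]
        simp only [prod_mul_distrib, prod_const, card_univ, Fintype.card_fin]
        congr 1
        rw [← prod_filter_mul_prod_filter_not univ (fun k => big (y k))]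
        have h3 : ∏ k with big (y k), (if big (y k) then (1 / 16 : ℝ) else 1) =
            ∏ _k : Fin m with big (y _k), (1 / 16 : ℝ) :=
          prod_congr rfl fun k hk => by rw [if_pos (mem_filter.1 hk).2]
        have h4 : ∏ k with ¬ big (y k), (if big (y k) then (1 / 16 : ℝ) else 1) = 1 :=
          prod_eq_one fun k hk => by rw [if_neg (mem_filter.1 hk).2]
        rw [h3, h4, mul_one, prod_const]
      rw [h2]
      have h3 : Real.sqrt 2 ^ (8 * #{k | big (y k)}) = 16 ^ #{k | big (y k)} := by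
        rw [pow_mul]
        congr 1
        calc Real.sqrt 2 ^ 8 = (Real.sqrt 2 ^ 2) ^ 4 := by ring
          _ = 16 := by rw [hs]; norm_num
      have h4 : Real.sqrt 2 ^ (8 * #{k | big (y k)}) ≤ Real.sqrt 2 ^ m :=
        pow_le_pow_right₀ hs2 h
      rw [one_div, inv_pow, ← div_eq_mul_inv, le_div_iff₀ (by positivity), one_mul, ← h3]
      exact h4
    · exact prod_nonneg fun k _ => hg0 _
  have h2 : Ex g ≤ 4 / 5 := by
    have h3 : Ex g = Real.sqrt 2 * (1 / 16 + 15 / 16 * Pr fun y => ¬ big y) := by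
      unfold Pr
      have h5 : ∀ F : Y → ℝ, 1 / 16 + 15 / 16 * Ex F = Ex fun y => 1 / 16 + 15 / 16 * F y := by
        intro F
        rw [Ex_add, Ex_const, Ex_const_mul]
      rw [h5, hg, Ex_const_mul]
      congr 1
      refine Ex_congr fun y => ?_
      by_cases h : big y
      · rw [if_pos h, if_neg (not_not.2 h)]; norm_num
      · rw [if_neg h, if_pos h]; norm_num
    rw [h3]
    have h4 : 0 ≤ Pr fun y => ¬ big y := Pr_nonneg _
    have h5 : Real.sqrt 2 ≤ 142 / 100 := by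
      rw [Real.sqrt_le_left (by norm_num)]
      norm_num
    nlinarith
  refine h1.trans ?_
  rw [Ex_pow]
  refine (pow_le_pow_left₀ (Ex_nonneg hg0) h2 m).trans ?_
  have h3 : 1 + (m : ℝ) * (1 / 4) ≤ (1 + 1 / 4) ^ m := one_add_mul_le_pow (by norm_num) m
  have h4 : ((4 : ℝ) / 5) ^ m * (5 / 4) ^ m = 1 := by
    rw [← mul_pow]; norm_num
  rw [le_div_iff₀ (by positivity)]
  have h5 : (0 : ℝ) ≤ (4 / 5) ^ m := by positivity
  have h6 : (1 + 1 / 4 : ℝ) = 5 / 4 := by norm_num
  rw [h6] at h3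
  nlinarith

/-! ### The splitting of the slots -/

/-- The first two slots and the rest. -/
def consE (α : Type) (m : ℕ) : α × α × (Fin m → α) ≃ (Fin (m + 2) → α) where
  toFun p := Fin.cons p.1 (Fin.cons p.2.1 p.2.2)
  invFun f := (f 0, f 1, fun k => f k.succ.succ)
  left_inv p := rfl
  right_inv f := by
    funext k
    refine Fin.cases rfl (fun k => ?_) k
    refine Fin.cases rfl (fun k => rfl) k

theorem sum_cons {m : ℕ} (F : Fin (m + 2) → ℤ) :
    ∑ k, F k = F 0 + F 1 + ∑ k : Fin m, F k.succ.succ := by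
  rw [Fin.sum_univ_succ, Fin.sum_univ_succ, ← add_assoc]
  rfl

/-- The anticoncentration of the weighted sum. -/
theorem acThm (hB : BallThm) (hT : TwoThm) (hLO : LOThm) : ACThm := by
  classical
  obtain ⟨δ, hδ, hδ1, hsm⟩ := small_half hB
  obtain ⟨C, hC, hT⟩ := hT
  refine ⟨2 * ((4 / δ + 1) * (6 / δ + 1)) * Real.sqrt 8 + 4 * C, by positivity,
    fun n L hn hL hE => ?_⟩
  obtain ⟨h, rfl⟩ := hE
  obtain ⟨m, rfl⟩ : ∃ m, n = m + 2 := ⟨n - 2, by omega⟩
  have hh : 0 < h := by omega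
  have hh' : (0 : ℝ) < h := by exact_mod_cast hh
  set L := h + h with hLd
  set Y := Fin (L * L) → Bool with hY
  set big : Y → Prop := fun y => δ * L ≤ |(xv L y : ℝ)| with hbig
  have hhalf : Pr (fun y : Y => ¬ big y) ≤ 1 / 2 := hsm L hL ⟨h, rfl⟩
  set Wn : (Fin (m + 2) → Y) → ℕ := fun y => #{k : Fin m | big (y k.succ.succ)} with hWn
  set S : (Fin (m + 2) → Fin L) → (Fin (m + 2) → Y) → ℤ :=
    fun a y => ∑ k, (a k : ℤ) * xv L (y k) with hS
  -- the seeds as tuples of strings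
  let cur : (Fin (m + 2) × Unit × Fin (L * L) → Bool) ≃ (Fin (m + 2) → Y) :=
    { toFun := fun y k i => y (k, (), i)
      invFun := fun g p => g p.1 p.2.2
      left_inv := fun y => rfl
      right_inv := fun g => rfl }
  have h0 : nu (m + 2) L = Pr fun p : (Fin (m + 2) → Fin L) × (Fin (m + 2) → Y) =>
      |S p.1 p.2| ≤ 2 * L := by
    rw [← Pr_equiv (Equiv.prodCongr (Equiv.refl _) cur)]
    rfl
  rw [h0]
  have h1 : (Pr fun p : (Fin (m + 2) → Fin L) × (Fin (m + 2) → Y) => |S p.1 p.2| ≤ 2 * L) ≤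
      (Pr fun p : (Fin (m + 2) → Fin L) × (Fin (m + 2) → Y) =>
        m < 8 * Wn p.2 ∧ |S p.1 p.2| ≤ 2 * L) +
      Pr fun p : (Fin (m + 2) → Fin L) × (Fin (m + 2) → Y) =>
        8 * Wn p.2 ≤ m ∧ |S p.1 p.2| ≤ 2 * L := by
    refine le_trans (Pr_mono fun p hp => ?_) (Pr_or_le _ _)
    rcases lt_or_ge m (8 * Wn p.2) with h2 | h2
    · exact Or.inl ⟨h2, hp⟩
    · exact Or.inr ⟨h2, hp⟩
  have hLr : (L : ℝ) = 2 * h := by rw [hLd]; push_cast; ring
  have hLz : (L : ℤ) = 2 * h := by rw [hLd]; push_cast; ring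
  have hL0 : (0 : ℝ) < L := by rw [hLr]; positivity
  have hsn : 0 < Real.sqrt ((m + 2 : ℕ) : ℝ) := Real.sqrt_pos.2 (by positivity)
  have hgood : (Pr fun p : (Fin (m + 2) → Fin L) × (Fin (m + 2) → Y) =>
        m < 8 * Wn p.2 ∧ |S p.1 p.2| ≤ 2 * L) ≤
      2 * ((4 / δ + 1) * (6 / δ + 1)) * Real.sqrt 8 / (L * Real.sqrt ((m + 2 : ℕ) : ℝ)) := by
    rw [← Pr_equiv (Equiv.prodComm _ _)]
    refine Pr_prod_le (by positivity) fun y => ?_
    by_cases hm : m < 8 * Wn y
    · set K : Finset (Fin (m + 2)) := {k | big (y k)} with hK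
      have hWK : Wn y ≤ #K := by
        rw [hWn]
        dsimp only
        refine card_le_card_of_injOn (fun k : Fin m => k.succ.succ) (fun k hk => ?_) ?_
        · have hk := (mem_filter.1 (mem_coe.1 hk)).2
          simp [hK, hk]
        · intro k _ k' _ hkk
          exact Fin.succ_injective _ (Fin.succ_injective _ hkk)
      have hne : K.Nonempty := by
        rw [← card_pos]
        omega
      have h3 := good_le hLO hh hδ (fun k => xv L (y k))
        (fun k => by
          have h4 := abs_xv_le (by omega : 0 < L) (y k)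
          rwa [hLz] at h4) K
        (fun k hk => by
          have h4 : big (y k) := by simpa [hK] using hk
          rw [hbig] at h4
          rwa [hLr] at h4) hne
      have h4 : Pr (fun a : Fin (m + 2) → Fin L => m < 8 * Wn y ∧ |S a y| ≤ 2 * L) ≤
          Pr fun a : Fin (m + 2) → Fin (h + h) => |∑ k, (a k : ℤ) * xv L (y k)| ≤ 4 * h := by
        refine Pr_mono fun a ha => ?_
        have h5 := ha.2
        rw [hLz] at h5
        rw [hS] at h5
        dsimp only at h5
        linarith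
      refine (h4.trans h3).trans ?_
      have h5 : Real.sqrt ((m + 2 : ℕ) : ℝ) ≤ Real.sqrt 8 * Real.sqrt (#K + 1) := by
        rw [← Real.sqrt_mul (by norm_num)]
        refine Real.sqrt_le_sqrt ?_
        have h6 : m + 2 ≤ 8 * (#K + 1) := by omega
        exact_mod_cast h6
      have h6 : 0 < Real.sqrt ((#K : ℝ) + 1) := Real.sqrt_pos.2 (by positivity)
      rw [div_mul_div_comm, div_le_div_iff₀ (by positivity) (by positivity), hLr]
      have h7 : 0 ≤ (4 / δ + 1) * (6 / δ + 1) * (2 * h) := by positivity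
      nlinarith
    · have h3 : Pr (fun a : Fin (m + 2) → Fin L => m < 8 * Wn y ∧ |S a y| ≤ 2 * L) ≤ 0 := by
        rw [Pr_card]
        have h4 : ({a : Fin (m + 2) → Fin L | m < 8 * Wn y ∧ |S a y| ≤ 2 * L} :
            Finset (Fin (m + 2) → Fin L)) = ∅ := by
          rw [Finset.filter_eq_empty_iff]
          exact fun a _ ha => hm ha.1
        rw [h4]
        simp
      exact h3.trans (by positivity)
  have hbad : (Pr fun p : (Fin (m + 2) → Fin L) × (Fin (m + 2) → Y) =>
        8 * Wn p.2 ≤ m ∧ |S p.1 p.2| ≤ 2 * L) ≤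
      4 * C / (L * Real.sqrt ((m + 2 : ℕ) : ℝ)) := by
    -- the rest of the slots first
    let e : ((Fin m → Fin L) × (Fin m → Y)) × ((Fin L × Fin L) × Y × Y) ≃
        (Fin (m + 2) → Fin L) × (Fin (m + 2) → Y) :=
      { toFun := fun p => (consE _ m (p.2.1.1, p.2.1.2, p.1.1), consE _ m (p.2.2.1, p.2.2.2, p.1.2))
        invFun := fun p => ((((consE _ m).symm p.1).2.2, ((consE _ m).symm p.2).2.2),
          ((((consE _ m).symm p.1).1, ((consE _ m).symm p.1).2.1),
            ((consE _ m).symm p.2).1, ((consE _ m).symm p.2).2.1))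
        left_inv := fun p => rfl
        right_inv := fun p => by
          refine Prod.ext ?_ ?_
          · exact (consE _ m).apply_symm_apply p.1
          · exact (consE _ m).apply_symm_apply p.2 }
    rw [← Pr_equiv e, Pr_prod]
    have h3 : ∀ p : (Fin m → Fin L) × (Fin m → Y),
        (Pr fun q : (Fin L × Fin L) × Y × Y =>
          8 * Wn (e (p, q)).2 ≤ m ∧ |S (e (p, q)).1 (e (p, q)).2| ≤ 2 * L) ≤
        C / L * (if 8 * #{k | big (p.2 k)} ≤ m then 1 else 0) := by
      intro p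
      split_ifs with h4
      · rw [mul_one]
        refine le_trans (Pr_mono fun q hq => ?_)
          (hT L hL ⟨h, rfl⟩ (∑ k, (p.1 k : ℤ) * xv L (p.2 k)))
        have h5 := hq.2
        have h6 : S (e (p, q)).1 (e (p, q)).2 = (q.1.1 : ℤ) * xv L q.2.1 + (q.1.2 : ℤ) * xv L q.2.2 +
            ∑ k, (p.1 k : ℤ) * xv L (p.2 k) := by
          rw [hS]
          dsimp only
          rw [sum_cons]
          rfl
        rw [h6] at h5
        have h7 : (q.1.1 : ℤ) * xv L q.2.1 + (q.1.2 : ℤ) * xv L q.2.2 +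
            ∑ k, (p.1 k : ℤ) * xv L (p.2 k) = ∑ k, (p.1 k : ℤ) * xv L (p.2 k) +
              (q.1.1 : ℤ) * xv L q.2.1 + (q.1.2 : ℤ) * xv L q.2.2 := by ring
        rwa [h7] at h5
      · rw [mul_zero, Pr_card]
        have h5 : ({q : (Fin L × Fin L) × Y × Y | 8 * Wn (e (p, q)).2 ≤ m ∧
            |S (e (p, q)).1 (e (p, q)).2| ≤ 2 * L} : Finset _) = ∅ := by
          rw [Finset.filter_eq_empty_iff]
          exact fun q _ hq => h4 hq.1
        rw [h5]
        simp
    refine (Ex_mono h3).trans ?_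
    rw [Ex_const_mul]
    have h4 : (Ex fun p : (Fin m → Fin L) × (Fin m → Y) =>
        if 8 * #{k | big (p.2 k)} ≤ m then (1 : ℝ) else 0) ≤ 4 / (m + 4) := by
      have h5 := Pr_prod_le (p := fun p : (Fin m → Fin L) × (Fin m → Y) =>
        8 * #{k | big (p.2 k)} ≤ m) (M := 4 / ((m : ℝ) + 4)) (by positivity)
        fun a => chernoff big hhalf m
      refine le_trans (le_of_eq ?_) h5
      unfold Pr
      refine Ex_congr fun p => ?_
      split_ifs <;> rfl
    have h5 : Real.sqrt ((m + 2 : ℕ) : ℝ) ≤ m + 4 := by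
      rw [Real.sqrt_le_left (by positivity)]
      push_cast
      nlinarith [Nat.cast_nonneg (α := ℝ) m]
    calc C / L * _ ≤ C / L * (4 / (m + 4)) := mul_le_mul_of_nonneg_left h4 (by positivity)
      _ = 4 * C / (L * (m + 4)) := by rw [div_mul_div_comm, mul_comm C 4]
      _ ≤ _ := by
        refine div_le_div_of_nonneg_left (by positivity) (by positivity) ?_
        exact mul_le_mul_of_nonneg_left h5 hL0.le
  refine h1.trans ((add_le_add hgood hbad).trans (le_of_eq ?_))
  rw [← add_div]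

/-- The probability that the weighted sum is small is positive. -/
theorem nuPos : NuPos := by
  intro n L hL
  classical
  unfold nu
  have hNe : Nonempty (Fin L) := ⟨⟨0, hL⟩⟩
  rw [Pr_card]
  refine div_pos ?_ (by exact_mod_cast Fintype.card_pos)
  have h1 : 0 < #{p : (Fin n → Fin L) × (Fin n × Unit × Fin (L * L) → Bool) |
      near p.1 p.2 fun _ => ()} := by
    rw [card_pos]
    refine ⟨(fun _ => ⟨0, hL⟩, fun _ => true), ?_⟩
    simp only [mem_filter, mem_univ, true_and]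
    unfold near Ssum
    simp
  exact_mod_cast h1

end Vale.Agent.P325.H810.K2
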